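import Vale.Agent.P089.H499.Main

/-!
# P089: the traces of the projections of `C*_r(G)`, `G` countable, form a countable set (helper293)
-/

set_option autoImplicit false

namespace Vale.Agent.P089.H293

open scoped InnerProductSpace
open Vale.Agent.P089.Asm Vale.Agent.P089.Ind Vale.Agent.P086 Vale.Agent.P089 Vale.Agent.P089.Op

/-- the values of the trace at the projections of the reduced C*-algebra -/
def trS (G : Type) [Group G] : Set ℂ :=
  {z | ∃ P ∈ Vale.Agent.P089.CstarR G, P * P = P ∧ IsSelfAdjoint P ∧ ent P 1 1 = z}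

theorem trS_mono {G Γ : Type} [Group G] [Group Γ] (ι : G →* Γ) (hι : Function.Injective ι) :
    trS G ⊆ trS Γ := by
  rintro z ⟨P, hP, hPP, hPs, rfl⟩
  obtain ⟨Q, hQ, hQQ, hQs, hQP⟩ := exists_ind ι hι hP hPP hPs
  exact ⟨Q, hQ, hQQ, hQs, by rw [← hQP, ent_cpr, map_one]⟩

section

variable {G : Type} [Group G]

theorem ent_eq_tau0 (P : L2 G →L[ℂ] L2 G) : ent P 1 1 = tau0 P := by
  classical
  rw [tau0_apply, ent_dl]

theorem tau0_comm (g h : G) :
    (tau0 : (L2 G →L[ℂ] L2 G) →L[ℂ] ℂ) (lam (g * h)) = tau0 (lam (h * g)) := by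
  classical
  rw [tau0_lam, tau0_lam]
  by_cases h1 : g * h = 1
  · rw [if_pos h1, if_pos (mul_eq_one_comm.1 h1)]
  · rw [if_neg h1, if_neg fun h2 => h1 (mul_eq_one_comm.1 h2)]

omit [Group G] in
theorem norm_refl_le {Q : L2 G →L[ℂ] L2 G} (hQQ : Q * Q = Q) (hQs : IsSelfAdjoint Q) :
    ‖1 - (2 : ℂ) • Q‖ ≤ 1 := by
  have h1 : star (1 - (2 : ℂ) • Q) * (1 - (2 : ℂ) • Q) = 1 := by
    have h2 : star ((2 : ℂ) • Q) = (2 : ℂ) • Q := by
      rw [star_smul, hQs.star_eq]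
      simp
    rw [star_sub, star_one, h2, sub_mul, mul_sub, mul_sub, one_mul, mul_one, one_mul,
      smul_mul_smul_comm, hQQ]
    have h3 : ((2 : ℂ) * 2) • Q = (2 : ℂ) • Q + (2 : ℂ) • Q := by rw [← add_smul]; norm_num
    rw [h3]
    abel
  have h4 := CStarRing.norm_star_mul_self (x := (1 - (2 : ℂ) • Q : L2 G →L[ℂ] L2 G))
  rw [h1] at h4
  have h5 : ‖(1 : L2 G →L[ℂ] L2 G)‖ ≤ 1 := ContinuousLinearMap.norm_id_le
  nlinarith [norm_nonneg (1 - (2 : ℂ) • Q : L2 G →L[ℂ] L2 G)]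

/-- projections at distance less than one have the same trace -/
theorem tau0_eq_of_close {P Q : L2 G →L[ℂ] L2 G} (hP : P ∈ Vale.Agent.P089.CstarR G)
    (hQ : Q ∈ Vale.Agent.P089.CstarR G) (hPP : P * P = P) (hQQ : Q * Q = Q)
    (hQs : IsSelfAdjoint Q) (h : ‖P - Q‖ < 1) : tau0 P = tau0 Q := by
  set w : L2 G →L[ℂ] L2 G := (P - Q) * (1 - (2 : ℂ) • Q) with hw
  have hw1 : ‖w‖ < 1 := by
    refine lt_of_le_of_lt (norm_mul_le _ _) ?_
    exact lt_of_le_of_lt (mul_le_of_le_one_right (norm_nonneg _) (norm_refl_le hQQ hQs)) h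
  have hz : 1 - w = P * Q + (1 - P) * (1 - Q) := by
    rw [hw, two_smul]
    simp only [mul_sub, sub_mul, mul_add, mul_one, one_mul, hQQ]
    abel
  have hzQ : (1 - w) * Q = P * (1 - w) := by
    rw [hz]
    simp only [mul_sub, sub_mul, mul_add, add_mul, mul_one, one_mul, mul_assoc, hQQ]
    simp only [← mul_assoc, hPP]
    abel
  have hwm : w ∈ CrG G := by
    rw [hw]
    exact mul_mem (sub_mem (mem_CrG.2 hP) (mem_CrG.2 hQ))
      (sub_mem (one_mem _) ((CrG G).smul_mem (mem_CrG.2 hQ) _))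
  set s : L2 G →L[ℂ] L2 G := ∑' n : ℕ, w ^ n with hs
  have hsum : Summable fun n : ℕ => w ^ n := summable_geometric_of_norm_lt_one hw1
  have hsm : s ∈ Vale.Agent.P089.CstarR G := by
    refine (isClosed_CstarR (G := G)).mem_of_tendsto hsum.hasSum (Filter.Eventually.of_forall fun F => ?_)
    exact mem_CrG.1 (sum_mem fun n _ => pow_mem hwm n)
  have h1 : s * (1 - w) = 1 := geom_series_mul_neg w hw1
  have h2 : (1 - w) * s = 1 := mul_neg_geom_series w hw1
  have hPz : P * (1 - w) ∈ Vale.Agent.P089.CstarR G :=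
    mem_CrG.1 (mul_mem (mem_CrG.2 hP) (sub_mem (one_mem _) hwm))
  have h3 := trace_cstarR (tau0 : (L2 G →L[ℂ] L2 G) →L[ℂ] ℂ) tau0_comm s hsm _ hPz
  rw [mul_assoc, h2, mul_one, ← hzQ, ← mul_assoc, h1, one_mul] at h3
  exact h3.symm

theorem countable_trS [Countable G] : (trS G).Countable := by
  have hsep : TopologicalSpace.IsSeparable (Vale.Agent.P089.CstarR G) := by
    rw [Vale.Agent.P089.CstarR, setOf_isLam]
    exact ((Set.countable_range (lam (G := G))).isSeparable.span (R := ℂ)).closure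
  have hsep' : TopologicalSpace.IsSeparable {P : L2 G →L[ℂ] L2 G | P ∈ Vale.Agent.P089.CstarR G ∧
      P * P = P ∧ IsSelfAdjoint P} := hsep.mono fun P hP => hP.1
  obtain ⟨t, htP, htc, htd⟩ := hsep'.exists_countable_dense_subset
  refine (htc.image (tau0 : (L2 G →L[ℂ] L2 G) →L[ℂ] ℂ)).mono ?_
  rintro z ⟨P, hP, hPP, hPs, rfl⟩
  obtain ⟨Q, hQ, hd⟩ := Metric.mem_closure_iff.1 (htd ⟨hP, hPP, hPs⟩) 1 one_pos
  rw [dist_eq_norm] at hd
  refine ⟨Q, hQ, ?_⟩
  rw [ent_eq_tau0]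
  exact (tau0_eq_of_close hP (htP hQ).1 hPP (htP hQ).2.1 (htP hQ).2.2 hd).symm

end

end Vale.Agent.P089.H293
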