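import Vale.Agent.P089.H293.Cnt

/-!
# P089: sub-families, distinct traces, and continuum many groups (helper293)
-/

set_option autoImplicit false

namespace Vale.Agent.P089.H293

open Module
open Vale.Agent.P089.Asm Vale.Agent.P089.Ind Vale.Agent.P086 Vale.Agent.P089 Vale.Agent.P089.Op

/-! ### Sub-families -/

/-- the data of `FamilyStatement` -/
def FamOk (q k D c e d K : ℕ) (F : Fam q) (C' C : Codes k F) : Prop :=
  20 ≤ K ∧ q ≤ k ∧ 0 < e ∧ 0 < d ∧ F.Coloured K ∧ F.Expander D c e ∧ F.SmallSets K (8 * d) ∧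
    (∀ m, C' m ≤ C m) ∧ (∀ m, F.pat k m ∈ C' m) ∧
    (∀ m, Module.finrank (ZMod 2) (C m) = Module.finrank (ZMod 2) (C' m) + 1) ∧
    (∀ m, CodeOnto d (C' m)) ∧ (∀ m, CodeDist e (C m)) ∧
    (∀ m, Module.finrank (ZMod 2) (C m) ≤ 3 * F.n m) ∧
    (∀ m, 2 * F.n m ≤ Module.finrank (ZMod 2) (C' m)) ∧
    (∀ m, m + 4 * F.n m ≤ F.n (m + 1))

/-- a sub-family -/
def sub {q : ℕ} (F : Fam q) (φ : ℕ → ℕ) : Fam q where
  n m := F.n (φ m)
  X m := F.X (φ m)
  col m := F.col (φ m)
  g m := F.g (φ m)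

theorem sub_reads {q : ℕ} (F : Fam q) (φ : ℕ → ℕ) (m : ℕ) (w : List (Letter q)) :
    ∀ x y, (sub F φ).Reads m x w y ↔ F.Reads (φ m) x w y := by
  induction w with
  | nil => exact fun x y => Iff.rfl
  | cons a w ih =>
    intro x y
    change (∃ z, (F.X (φ m)).Adj x z ∧ a = (F.col (φ m) x, F.col (φ m) z) ∧ (sub F φ).Reads m z w y) ↔
      (∃ z, (F.X (φ m)).Adj x z ∧ a = (F.col (φ m) x, F.col (φ m) z) ∧ F.Reads (φ m) z w y)
    exact exists_congr fun z => and_congr_right fun _ => and_congr_right fun _ => ih z y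

theorem sub_coloured {q : ℕ} {F : Fam q} {φ : ℕ → ℕ} (hφ : StrictMono φ) {K : ℕ}
    (h : F.Coloured K) : (sub F φ).Coloured K where
  g_large m := h.g_large (φ m)
  proper m := h.proper (φ m)
  dist2 m := h.dist2 (φ m)
  piece m x w x' m' y y' hw h1 h2 h3 := by
    refine h.piece (φ m) x w x' (φ m') y y' hw ((sub_reads F φ m w x x').1 h1)
      ((sub_reads F φ m' w y y').1 h2) fun h4 => h3 ?_
    have h5 : m = m' := hφ.injective (congrArg Sigma.fst h4)
    subst h5
    have h6 : x = y := eq_of_heq (Sigma.mk.inj h4).2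
    exact congrArg (Sigma.mk m) h6

theorem sub_expander {q : ℕ} {F : Fam q} {φ : ℕ → ℕ} {D c e : ℕ}
    (h : F.Expander D c e) : (sub F φ).Expander D c e where
  two m := h.two (φ m)
  conn m := h.conn (φ m)
  deg m := h.deg (φ m)
  girth m := h.girth (φ m)
  g_pos m := h.g_pos (φ m)
  size m := h.size (φ m)
  expand m := h.expand (φ m)
  sparse m := h.sparse (φ m)

theorem n_mono {q : ℕ} {F : Fam q} (h : ∀ m, m + 4 * F.n m ≤ F.n (m + 1)) : Monotone F.n :=
  monotone_nat_of_le_succ fun m => by have := h m; omega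

theorem sub_ok {q k D c e d K : ℕ} {F : Fam q} {C' C : Codes k F} (h : FamOk q k D c e d K F C' C)
    {φ : ℕ → ℕ} (hφ : StrictMono φ) :
    FamOk q k D c e d K (sub F φ) (fun m => C' (φ m)) (fun m => C (φ m)) := by
  obtain ⟨hK, hqk, he, hd, hC, hE, hS, hle, hpat, hfin, honto, hdist, hub, hlb, hgr⟩ := h
  refine ⟨hK, hqk, he, hd, sub_coloured hφ hC, sub_expander hE, fun m => hS (φ m),
    fun m => hle (φ m), fun m => hpat (φ m), fun m => hfin (φ m), fun m => honto (φ m),
    fun m => hdist (φ m), fun m => hub (φ m), fun m => hlb (φ m), fun m => ?_⟩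
  change m + 4 * F.n (φ m) ≤ F.n (φ (m + 1))
  have h1 : φ m + 1 ≤ φ (m + 1) := hφ (Nat.lt_succ_self m)
  have h2 := n_mono hgr h1
  have h3 := hgr (φ m)
  have h4 : m ≤ φ m := hφ.le_apply
  omega

theorem fin_step {q k D c e d K : ℕ} {F : Fam q} {C' C : Codes k F}
    (h : FamOk q k D c e d K F C' C) (m : ℕ) :
    finrank (ZMod 2) (C m) + 2 ≤ finrank (ZMod 2) (C (m + 1)) := by
  obtain ⟨-, -, -, -, -, hE, -, -, -, hfin, -, -, hub, hlb, hgr⟩ := h
  have h1 := hub m
  have h2 := hlb (m + 1)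
  have h3 := hfin (m + 1)
  have h4 := hgr m
  have h5 := hE.two m
  omega

/-! ### Distinct sums -/

/-- the sub-family given by a sequence of bits -/
def ph (S : ℕ → Bool) (m : ℕ) : ℕ := 2 * m + (S m).toNat

theorem ph_strictMono (S : ℕ → Bool) : StrictMono (ph S) := by
  refine strictMono_nat_of_lt_succ fun m => ?_
  have h1 : (S m).toNat ≤ 1 := Bool.toNat_le _
  unfold ph
  omega

section sums

variable {dd : ℕ → ℕ} (hd : ∀ m, dd m + 2 ≤ dd (m + 1))

include hd

theorem dd_add (m i : ℕ) : dd m + 2 * i ≤ dd (m + i) := by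
  induction i with
  | zero => simp
  | succ i ih =>
    have := hd (m + i)
    rw [← add_assoc]
    omega

theorem summ {φ : ℕ → ℕ} (hφ : StrictMono φ) : Summable fun m => (1 / 2 : ℝ) ^ dd (φ m) := by
  refine Summable.of_nonneg_of_le (fun m => by positivity) (fun m => ?_)
    (summable_geometric_of_lt_one (by norm_num : (0 : ℝ) ≤ 1 / 2) (by norm_num))
  refine pow_le_pow_of_le_one (by norm_num) (by norm_num) ?_
  have h1 := dd_add hd 0 (φ m)
  have h2 : m ≤ φ m := hφ.le_apply
  rw [zero_add] at h1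
  omega

theorem sum_lt {S T : ℕ → Bool} {m : ℕ} (h1 : ∀ j < m, S j = T j) (h2 : S m = false)
    (h3 : T m = true) :
    ∑' j, (1 / 2 : ℝ) ^ dd (ph T j) < ∑' j, (1 / 2 : ℝ) ^ dd (ph S j) := by
  have hS := summ hd (ph_strictMono S)
  have hT := summ hd (ph_strictMono T)
  rw [← hS.sum_add_tsum_nat_add m, ← hT.sum_add_tsum_nat_add m]
  have e1 : ∑ j ∈ Finset.range m, (1 / 2 : ℝ) ^ dd (ph T j) =
      ∑ j ∈ Finset.range m, (1 / 2 : ℝ) ^ dd (ph S j) := by
    refine Finset.sum_congr rfl fun j hj => ?_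
    rw [ph, ph, h1 j (Finset.mem_range.1 hj)]
  rw [e1]
  refine add_lt_add_right ?_ _
  have hS' := (summable_nat_add_iff m).2 hS
  have hT' := (summable_nat_add_iff m).2 hT
  have e2 : (1 / 2 : ℝ) ^ dd (2 * m) ≤ ∑' i, (1 / 2 : ℝ) ^ dd (ph S (i + m)) := by
    have h4 := hS'.le_tsum 0 (fun j _ => by positivity)
    refine le_trans (le_of_eq ?_) h4
    rw [zero_add, ph, h2]
    rfl
  have e3 : ∀ i, (1 / 2 : ℝ) ^ dd (ph T (i + m)) ≤
      ((1 / 2 : ℝ) ^ dd (2 * m) * (1 / 4)) * (1 / 4) ^ i := by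
    intro i
    have h5 : 2 * m + (1 + i) ≤ ph T (i + m) := by
      rcases Nat.eq_zero_or_pos i with h | h
      · subst h
        rw [zero_add, ph, h3]
        rfl
      · rw [ph]
        omega
    have h6 : dd (2 * m) + 2 * (1 + i) ≤ dd (ph T (i + m)) := by
      refine (dd_add hd _ _).trans ?_
      exact (monotone_nat_of_le_succ fun m => by have := hd m; omega) h5
    calc (1 / 2 : ℝ) ^ dd (ph T (i + m)) ≤ (1 / 2 : ℝ) ^ (dd (2 * m) + 2 * (1 + i)) :=
          pow_le_pow_of_le_one (by norm_num) (by norm_num) h6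
      _ = _ := by
          rw [pow_add, pow_mul, pow_add, pow_one, mul_assoc]
          norm_num
  have hg : Summable fun i : ℕ => ((1 / 2 : ℝ) ^ dd (2 * m) * (1 / 4)) * (1 / 4) ^ i :=
    (summable_geometric_of_lt_one (by norm_num) (by norm_num)).mul_left _
  have e4 := hT'.tsum_le_tsum e3 hg
  rw [tsum_mul_left, tsum_geometric_of_lt_one (by norm_num) (by norm_num)] at e4
  have e5 : (0 : ℝ) < (1 / 2 : ℝ) ^ dd (2 * m) := by positivity
  refine lt_of_le_of_lt e4 (lt_of_lt_of_le ?_ e2)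
  nlinarith

theorem sum_injective : Function.Injective fun S : ℕ → Bool => ∑' j, (1 / 2 : ℝ) ^ dd (ph S j) := by
  classical
  intro S T hST
  by_contra hne
  have hex : ∃ m, S m ≠ T m := by
    by_contra h
    push Not at h
    exact hne (funext h)
  have h1 : ∀ j < Nat.find hex, S j = T j := fun j hj => not_not.1 (Nat.find_min hex hj)
  have h2 := Nat.find_spec hex
  rcases hS : S (Nat.find hex) with _ | _
  · rcases hT : T (Nat.find hex) with _ | _
    · exact h2 (hS.trans hT.symm)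
    · exact (sum_lt hd h1 hS hT).ne' hST
  · rcases hT : T (Nat.find hex) with _ | _
    · exact (sum_lt hd (fun j hj => (h1 j hj).symm) hT hS).ne hST
    · exact h2 (hS.trans hT.symm)

end sums

/-! ### Cardinals -/

open Cardinal

/-- An equivalence relation with countable classes on a type of cardinality continuum has a
system of representatives indexed by the real numbers. -/
theorem exists_reps {U : Type} (hU : #U = 𝔠) (r : Setoid U)
    (hr : ∀ x, {y | r y x}.Countable) : ∃ g : ℝ → U, ∀ s t, s ≠ t → ¬ r (g s) (g t) := by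
  have h1 : #(Quotient r) ≤ 𝔠 := by
    rw [← hU]
    exact Cardinal.mk_le_of_surjective (f := Quotient.mk r) Quotient.mk_surjective
  have h2 : 𝔠 ≤ #(Quotient r) * ℵ₀ := by
    rw [← hU, ← Cardinal.mk_congr (Equiv.sigmaFiberEquiv (Quotient.mk r)), Cardinal.mk_sigma]
    refine (Cardinal.sum_le_sum _ (fun _ => ℵ₀) fun x => ?_).trans ?_
    · rw [Cardinal.mk_le_aleph0_iff]
      obtain ⟨y, rfl⟩ := Quotient.mk_surjective x
      have h3 := (hr y).to_subtype
      refine Function.Injective.countable (β := {z | r z y})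
        (f := fun z : {z // Quotient.mk r z = Quotient.mk r y} => ⟨z.1, Quotient.exact z.2⟩) ?_
      intro z z' h
      exact Subtype.ext (Subtype.mk.inj h)
    · rw [Cardinal.sum_const']
  have h3 : #(Quotient r) = #ℝ := by
    rw [Cardinal.mk_real]
    refine le_antisymm h1 ?_
    by_contra h4
    push Not at h4
    have h5 := h2.trans (Cardinal.mul_le_max _ _)
    have h6 : max (max #(Quotient r) ℵ₀) ℵ₀ < 𝔠 :=
      max_lt (max_lt h4 Cardinal.aleph0_lt_continuum) Cardinal.aleph0_lt_continuum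
    exact absurd h5 (not_le.2 h6)
  obtain ⟨E⟩ := Cardinal.eq.1 h3
  refine ⟨fun t => (E.symm t).out, fun s t hst h => hst ?_⟩
  have h7 : (E.symm s) = E.symm t := by
    rw [← Quotient.out_eq (E.symm s), ← Quotient.out_eq (E.symm t)]
    exact Quotient.sound h
  exact E.symm.injective h7

end Vale.Agent.P089.H293
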