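import Vale.Agent.P089.H293.Cont

/-!
# P089: continuum many pairwise non-isomorphic groups, generic in the property (helper293)
-/

set_option autoImplicit false

namespace Vale.Agent.P089.H293

open Vale.Agent.P089.Asm Vale.Agent.P089.Ind Vale.Agent.P086 Vale.Agent.P089 Vale.Agent.P089.Op
open Cardinal

/-- If for each sequence `S` of bits there is a countable group with the property `Cx (f S)`, which
implies that `f S` is the trace of a projection, and `f` is injective, then there are continuum many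
pairwise non-isomorphic such groups. -/
theorem fam_all (Cx : ℝ → ∀ G : Type, Group G → Prop)
    (hc : ∀ x G (i : Group G), Cx x G i → Countable G ∧ (x : ℂ) ∈ @trS G i)
    (f : (ℕ → Bool) → ℝ) (hf : Function.Injective f) (hex : ∀ S, ∃ G i, Cx (f S) G i) :
    ∃ (Gr : ℝ → Type) (i : ∀ t, Group (Gr t)) (S : ℝ → ℕ → Bool), Function.Injective S ∧
      (∀ t, Cx (f (S t)) (Gr t) (i t)) ∧ ∀ s t, s ≠ t → IsEmpty (Gr s ≃* Gr t) := by
  classical
  choose Gr i hGr using hex
  let r : Setoid (ℕ → Bool) :=
    { r := fun S T => Nonempty (Gr S ≃* Gr T)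
      iseqv := ⟨fun S => ⟨MulEquiv.refl _⟩, fun ⟨e⟩ => ⟨e.symm⟩, fun ⟨e⟩ ⟨e'⟩ => ⟨e.trans e'⟩⟩ }
  have hU : #(ℕ → Bool) = 𝔠 := by
    rw [← Cardinal.power_def, Cardinal.mk_bool, Cardinal.mk_nat, Cardinal.two_power_aleph0]
  have hr : ∀ S, {T | r T S}.Countable := by
    intro S
    have hcS := (hc _ _ _ (hGr S)).1
    have h1 : (trS (Gr S)).Countable := countable_trS
    have h2 : Function.Injective fun T : ℕ → Bool => ((f T : ℝ) : ℂ) := fun T T' h =>
      hf (Complex.ofReal_injective h)
    refine (h1.preimage_of_injOn h2.injOn).mono ?_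
    rintro T ⟨e⟩
    exact trS_mono e.toMonoidHom e.injective (hc _ _ _ (hGr T)).2
  obtain ⟨g, hg⟩ := exists_reps hU r hr
  refine ⟨fun t => Gr (g t), fun t => i (g t), g, ?_, fun t => hGr (g t), fun s t hst => ?_⟩
  · intro s t h
    by_contra hst
    refine hg s t hst ?_
    rw [h]
  · by_contra h
    rw [not_isEmpty_iff] at h
    exact hg s t hst h

end Vale.Agent.P089.H293
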